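import Vale.Agent.P129BA.KLim
import Vale.Agent.P129BD.Core
import Vale.Agent.P129BL.Dense
import Vale.Agent.P129BZ.Dual

/-!
# Functionals equivalent to an orthonormal sequence from the representation of all sign patterns
-/

namespace Vale.Agent.P129B

universe v

variable {N : Type v} [ZM N]
  {R : Type*} [Field R] [LinearOrder R] [IsStrictOrderedRing R] [Coded N R] [RF N R]
  {K : Type*} [Field K] [Algebra R K] [Nm K R] [KA R K] [Coded N K] [KF N R K]
  {E : Type*} [AddCommGroup E] [Module K E] [Nm E R] [NA R K E] [Coded N E] [NS N R K E]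

open KA

theorem star_core {δ : R} (hδ : 0 < δ) {x : NN N → E} (hx : DefF N x) (hx1 : ∀ i, nm (x i) ≤ 1)
    (h : ∀ (n : NN N) (ε : NN N → R), Intl N ε → (∀ i, ε i = 1 ∨ ε i = -1) →
      ∃ ψ : Dual N K E, nm ψ ≤ 1 ∧
        ∀ i, i < n → nm (ψ (x i) - algebraMap R K (δ * ε i)) ≤ δ / 16) :
    ∃ φ : NN N → Dual N K E, Intl N φ ∧
      (∀ y n, isum (fun k => nm (φ k y) ^ 2) n ≤ nm y ^ 2) ∧
      ∀ (n : NN N) (a : NN N → K), Intl N a →
        (δ / 8) ^ 2 * isum (fun k => nm (a k) ^ 2) n ≤ nm (isum (fun k => a k • φ k) n) ^ 2 := by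
  obtain ⟨f, hf, hf'⟩ := exists_intl_choice (N := N)
    (R := fun (n : NN N) (f : NN N → Dual N K E) => (∀ k, n ≤ k → f k = 0) ∧
      (∀ y, isum (fun k => nm (f k y) ^ 2) n ≤ nm y ^ 2) ∧ ∀ i, i < n →
        0 ≤ isum (fun k => qzR R i k * re (f k (x i))) n ∧
        (1 / 2 * δ) ^ 2 * isum (fun k => qzR R i k ^ 2) n ≤
          isum (fun k => qzR R i k * re (f k (x i))) n ^ 2 ∧
        isum (fun k => im (f k (x i)) ^ 2) n ≤ (δ / 16) ^ 2) (by fun_prop) fun n =>
    signs_core (fun (u : Dual N K E) y => u y) (by fun_prop) (fun _ _ _ => rfl) (fun _ _ _ => rfl)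
      (s := fun y => nm y) (by fun_prop) hδ hx (by fun_prop) n fun ε h1 h2 =>
        (h n ε h1 h2).imp fun ψ c => ⟨fun y => by simpa using Dual.le_of_opNorm_le c.1 y, c.2⟩
  have h2 := DefF.ofIntl2 (N := N) f
  obtain ⟨L, hL⟩ := exists_kLim (N := N) (K := K)
  have hLd := hL.defF
  have hb : ∀ y n k, nm (f n k y) ≤ nm y := fun y n k => by
    rcases lt_or_ge k n with c | c
    · exact le_of_sq_le_sq ((le_isum (f := fun k => nm (f n k y) ^ 2) (by fun_prop) c
        fun _ _ => sq_nonneg _).trans ((hf' n).2.1 y)) (nm_nonneg y)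
    · rw [(hf' n).1 k c, Dual.zero_apply, nm_zero]; exact nm_nonneg y
  have hex : ∀ k, ∃ φ : Dual N K E, ∀ y, φ y = L fun n => f n k y := fun k =>
    exists_dual _ (by fun_prop) (fun y z => by
      simp only [map_add]
      exact hL.add _ _ (by fun_prop) (by fun_prop) ⟨_, fun n => hb y n k⟩ ⟨_, fun n => hb z n k⟩)
      (fun c y => by
        simp only [Dual.smul_arg]
        exact hL.mul _ _ (by fun_prop) ⟨_, fun n => hb y n k⟩) 1
      fun y => by rw [one_mul]; exact hL.nm_le (by fun_prop) fun n => hb y n k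
  choose φ hφ using hex
  have hφd : DefF N φ := defF_dual (by simp only [hφ]; fun_prop)
  refine ⟨φ, hφd.toIntl, fun y n => ?_, fun M a ha => ?_⟩
  · simp only [hφ]
    exact hL.upper (F := fun n k => f n k y) (by fun_prop) (hb y) (fun n => (hf' n).2.1 y) n
  have main : ∀ a : NN N → K, DefF N a → ∀ B B' : R, 0 ≤ B → 0 ≤ B' →
      B ^ 2 = isum (fun k => re (a k) ^ 2) M → isum (fun k => im (a k) ^ 2) M ≤ B' ^ 2 →
      3 / 8 * δ * B - δ / 16 * B' ≤ nm (isum (fun k => a k • φ k) M) := by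
    intro a ha B B' hB hB' h3 h4
    refine le_of_forall_pos_le_add fun η hη => ?_
    have hM := rc_succ_pos (R := R) M
    have hθ : 0 < η / ((δ + 1) * (rc R M + 1)) := by positivity
    obtain ⟨i, h5, h6⟩ := qzR_dense (c := fun k => re (a k)) (by fun_prop) M hθ
    have h7 := hL.lower (F := fun n k => f n k (x i)) (by fun_prop)
      (fun n k => (hb _ n k).trans (hx1 i)) hδ hθ.le (q := qzR R i) (by fun_prop) ha M (i + 1) h5
      h6 hB hB' h3 h4 fun n hn => by
        obtain ⟨k1, k2, k3⟩ := (hf' n).2.2 i (NN.add_one_le_iff.1 hn)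
        refine ⟨k1, le_trans (mul_le_mul_of_nonneg_right ?_
          (isum_nonneg (by fun_prop) fun _ _ => sq_nonneg _)) k2, k3⟩
        nlinarith only [sq_nonneg δ]
    have h8 : isum (fun k => a k * L fun n => f n k (x i)) M =
        (isum (fun k => a k • φ k) M) (x i) := by
      rw [Dual.isum_apply (by fun_prop)]
      simp only [Dual.smul_apply, hφ]
    have h9 : (δ + 1) * (rc R M * (η / ((δ + 1) * (rc R M + 1)))) ≤ η := by
      have : (δ + 1) * ((rc R M + 1) * (η / ((δ + 1) * (rc R M + 1)))) = η := by field_simp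
      nlinarith only [this, mul_pos (by linarith : 0 < δ + 1) hθ]
    rw [h8] at h7
    linarith [(re_le_nm _).trans ((isum (fun k => a k • φ k) M).le_nm_of_le_one (hx1 i))]
  obtain ⟨B, hB, h3⟩ := exists_sqrt N (x := isum (fun k => re (a k) ^ 2) M)
    (isum_nonneg (by fun_prop) fun _ _ => sq_nonneg _)
  obtain ⟨B', hB', h4⟩ := exists_sqrt N (x := isum (fun k => im (a k) ^ 2) M)
    (isum_nonneg (by fun_prop) fun _ _ => sq_nonneg _)
  have h5 := main a (by fun_prop) B B' hB hB' h3 h4.ge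
  have h6 := main (fun k => I * a k) (by fun_prop) B' B hB' hB
    (by simp only [re_I_mul, neg_sq]; exact h4)
    (h3 ▸ isum_le_isum (by fun_prop) (by fun_prop) fun k _ => by
      rcases I_cases (K := K) with c | c
      · rw [im_of_I_eq_zero c]; nlinarith only [sq_nonneg (re (a k))]
      · rw [mul_im, re_I, c.2, zero_mul, zero_add, one_mul])
  simp only [mul_smul] at h6
  rw [← smul_isum _ (by fun_prop), nm_smul] at h6
  have h7 := mul_le_of_le_one_left (nm_nonneg (isum (fun k => a k • φ k) M)) (nm_I_le (K := K))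
  have h8 : δ / 8 * (B + B') ≤ nm (isum (fun k => a k • φ k) M) := by
    nlinarith only [h5, h6, h7, mul_nonneg hδ.le hB, mul_nonneg hδ.le hB']
  refine le_trans ?_ (pow_le_pow_left₀ (by positivity) h8 2)
  simp only [nm_sq]
  rw [isum_add (by fun_prop) (by fun_prop), ← h3, ← h4, mul_pow]
  exact mul_le_mul_of_nonneg_left (by nlinarith only [mul_nonneg hB hB']) (sq_nonneg _)

end Vale.Agent.P129B
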