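import Vale.Agent.P129BT.Lim
import Vale.Agent.P129BZ.Scal
import Vale.Agent.P129B.Real

/-!
# Generalised limits of bounded sequences of scalars and two estimates for them
-/

namespace Vale.Agent.P129B

universe v

variable {N : Type v} [ZM N] {R : Type*} [Field R] [LinearOrder R] [IsStrictOrderedRing R]
  [Coded N R] [RF N R] {K : Type*} [Field K] [Algebra R K] [Nm K R] [KA R K] [Coded N K]
  [KF N R K]

open KA

/-- A generalised limit of the bounded internal sequences of scalars. -/
structure KLim (N : Type v) [ZM N] {R : Type*} [Field R] [LinearOrder R] [IsStrictOrderedRing R]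
    {K : Type*} [Field K] [Algebra R K] [Nm K R] [KA R K] [Coded N K]
    (L : (NN N → K) → K) : Prop where
  defF : DefF N L
  add : ∀ u w : NN N → K, DefF N u → DefF N w → (∃ C, ∀ n, nm (u n) ≤ C) →
    (∃ C, ∀ n, nm (w n) ≤ C) → L (fun n => u n + w n) = L u + L w
  mul : ∀ (c : K) (u : NN N → K), DefF N u → (∃ C, ∀ n, nm (u n) ≤ C) →
    L (fun n => c * u n) = c * L u
  le : ∀ u : NN N → K, DefF N u → (∃ C, ∀ n, nm (u n) ≤ C) → ∀ b : R,
    (∃ m, ∀ n, m ≤ n → re (u n) ≤ b) → re (L u) ≤ b

theorem exists_kLim : ∃ L : (NN N → K) → K, KLim N L := by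
  obtain ⟨L, h1, h2, h3, h4⟩ := exists_limit_of_lub (N := N) (R := R) RF.lub
  have h0 : L (fun _ => 0) = 0 := by
    have := h3 0 (fun _ => 0) (DefF.toIntl (by fun_prop)) ⟨0, fun _ => by simp⟩
    simpa using this
  have i1 : ∀ {u : NN N → K}, DefF N u → Intl N fun n => re (u n) :=
    fun hu => DefF.toIntl (by fun_prop)
  have i2 : ∀ {u : NN N → K}, DefF N u → Intl N fun n => im (u n) :=
    fun hu => DefF.toIntl (by fun_prop)
  have b1 : ∀ {u : NN N → K}, (∃ C, ∀ n, nm (u n) ≤ C) → ∃ C, ∀ n, |re (u n)| ≤ C :=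
    fun h => h.imp fun _ c n => (abs_re_le_nm _).trans (c n)
  have b2 : ∀ {u : NN N → K}, (∃ C, ∀ n, nm (u n) ≤ C) → ∃ C, ∀ n, |im (u n)| ≤ C :=
    fun h => h.imp fun _ c n => (abs_im_le_nm _).trans (c n)
  have e1 : ∀ u : NN N → K, re (algebraMap R K (L fun n => re (u n)) +
      algebraMap R K (L fun n => im (u n)) * I) = L fun n => re (u n) := fun u => by
    rw [map_add, re_ofR, re_ofR_mul, re_I, mul_zero, add_zero]
  have e2 : ∀ u : NN N → K, im (algebraMap R K (L fun n => re (u n)) +
      algebraMap R K (L fun n => im (u n)) * I) = L fun n => im (u n) := fun u => by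
    rw [map_add, im_ofR, im_ofR_mul, zero_add]
    rcases I_cases (K := K) with h | h
    · simp only [im_of_I_eq_zero h, h0, mul_zero]
    · rw [h.2, mul_one]
  have lin : ∀ (s t : R) (u w : NN N → R), Intl N u → Intl N w → (∃ C, ∀ n, |u n| ≤ C) →
      (∃ C, ∀ n, |w n| ≤ C) → L (fun n => s * u n + t * w n) = s * L u + t * L w := by
    intro s t u w hu hw a b
    have m : ∀ (s : R) (u : NN N → R), (∃ C, ∀ n, |u n| ≤ C) → ∃ C, ∀ n, |s * u n| ≤ C :=
      fun s u ⟨C, c⟩ => ⟨|s| * C, fun n => by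
        rw [abs_mul]; exact mul_le_mul_of_nonneg_left (c n) (abs_nonneg s)⟩
    rw [h2 _ _ (DefF.toIntl (by fun_prop)) (DefF.toIntl (by fun_prop)) (m s u a) (m t w b),
      h3 s u hu a, h3 t w hw b]
  refine ⟨fun u => algebraMap R K (L fun n => re (u n)) +
    algebraMap R K (L fun n => im (u n)) * I, by fun_prop, fun u w hu hw a b => KA.ext ?_ ?_,
    fun c u hu a => KA.ext ?_ ?_, fun u hu a b hb => ?_⟩
  · rw [e1, map_add re, e1, e1]
    simp only [map_add]
    exact h2 _ _ (i1 hu) (i1 hw) (b1 a) (b1 b)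
  · rw [e2, map_add im, e2, e2]
    simp only [map_add]
    exact h2 _ _ (i2 hu) (i2 hw) (b2 a) (b2 b)
  · rw [mul_re c, e1, e1, e2, sub_eq_add_neg, ← neg_mul,
      ← lin _ _ _ _ (i1 hu) (i2 hu) (b1 a) (b2 a)]
    simp only [mul_re c, sub_eq_add_neg, neg_mul]
  · rw [mul_im c, e2, e1, e2, ← lin _ _ _ _ (i2 hu) (i1 hu) (b2 a) (b1 a)]
    simp only [mul_im c]
  · rw [e1]
    exact (h4 _ (i1 hu) (b1 a)).1 b hb

namespace KLim

variable {L : (NN N → K) → K}

theorem nm_le (h : KLim N L) {u : NN N → K} (hu : DefF N u) {C : R} (hC : ∀ n, nm (u n) ≤ C) :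
    nm (L u) ≤ C := by
  have h1 : ∀ n, nm (rot (L u) * u n) ≤ C := fun n => by rw [nm_mul, nm_rot, one_mul]; exact hC n
  have h2 := h.le (fun n => rot (L u) * u n) (by fun_prop) ⟨C, h1⟩ C
    ⟨0, fun n _ => (re_le_nm _).trans (h1 n)⟩
  rwa [h.mul _ u hu ⟨C, hC⟩, rot_mul, re_ofR] at h2

theorem map_sum (h : KLim N L) {F : NN N → NN N → K}
    (hF : DefF N fun p : NN N × NN N => F p.1 p.2) {C : R} (hC : ∀ n k, nm (F n k) ≤ C)
    {a : NN N → K} (ha : DefF N a) (M : NN N) :
    L (fun n => isum (fun k => a k * F n k) M) = isum (fun k => a k * L fun n => F n k) M := by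
  have hL := h.defF
  refine NN.ind (P := fun M => L (fun n => isum (fun k => a k * F n k) M) =
    isum (fun k => a k * L fun n => F n k) M) (by fun_prop) ?_ (fun m ih => ?_) M
  · have := h.mul 0 (fun _ => 0) (by fun_prop) ⟨0, fun _ => by simp⟩
    simpa using this
  · have e : ∀ n, isum (fun k => a k * F n k) (m + 1) =
        isum (fun k => a k * F n k) m + a m * F n m := fun n => isum_succ (by fun_prop) m
    have b : ∀ n k, nm (a k * F n k) ≤ nm (a k) * C := fun n k => by
      rw [nm_mul]; exact mul_le_mul_of_nonneg_left (hC n k) (nm_nonneg _)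
    simp only [e]
    rw [h.add _ _ (by fun_prop) (by fun_prop) ⟨isum (fun k => nm (a k) * C) m, fun n =>
      (nm_isum_le (by fun_prop) m).trans (isum_le_isum (by fun_prop) (by fun_prop)
        fun k _ => b n k)⟩ ⟨_, fun n => b n m⟩, ih, isum_succ (by fun_prop),
      h.mul _ _ (by fun_prop) ⟨C, fun n => hC n m⟩]

/-- Finite combinations of the limits are bounded by the upper limits of the combinations. -/
theorem star (h : KLim N L) {F : NN N → NN N → K}
    (hF : DefF N fun p : NN N × NN N => F p.1 p.2) {C : R} (hC : ∀ n k, nm (F n k) ≤ C)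
    {a : NN N → K} (ha : DefF N a) (M : NN N) {r : R}
    (hr : ∃ m, ∀ n, m ≤ n → re (isum (fun k => a k * F n k) M) ≤ r) :
    re (isum (fun k => a k * L fun n => F n k) M) ≤ r := by
  rw [← h.map_sum hF hC ha]
  refine h.le _ (by fun_prop) ⟨isum (fun k => nm (a k) * C) M, fun n =>
    (nm_isum_le (by fun_prop) M).trans (isum_le_isum (by fun_prop) (by fun_prop)
      fun k _ => ?_)⟩ r hr
  rw [nm_mul]; exact mul_le_mul_of_nonneg_left (hC n k) (nm_nonneg _)

theorem re_isum {f : NN N → K} (hf : DefF N f) (M : NN N) :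
    re (isum f M) = isum (fun k => re (f k)) M :=
  map_isum (re : K →ₗ[R] R) (by fun_prop) hf M

/-- The upper estimate passes to the limit. -/
theorem upper (h : KLim N L) {F : NN N → NN N → K}
    (hF : DefF N fun p : NN N × NN N => F p.1 p.2) {C : R} (hC : ∀ n k, nm (F n k) ≤ C) {c : R}
    (hc : ∀ n, isum (fun k => nm (F n k) ^ 2) n ≤ c) (M : NN N) :
    isum (fun k => nm (L fun n => F n k) ^ 2) M ≤ c := by
  have hL := h.defF
  have h1 := h.star hF hC (a := fun k => conj (L fun n => F n k)) (by fun_prop) M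
    (r := (isum (fun k => nm (L fun n => F n k) ^ 2) M + c) / 2) ⟨M, fun n hn => by
      have h2 : isum (fun k => nm (F n k) ^ 2) M ≤ c :=
        (isum_mono (by fun_prop) hn fun _ _ => sq_nonneg _).trans (hc n)
      have h3 : 2 * isum (fun k => re (conj (L fun n => F n k) * F n k)) M ≤
          isum (fun k => nm (L fun n => F n k) ^ 2 + nm (F n k) ^ 2) M := by
        rw [mul_isum _ (by fun_prop)]
        refine isum_le_isum (by fun_prop) (by fun_prop) fun k _ => ?_
        rw [re_conj_mul, nm_sq, nm_sq]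
        nlinarith [sq_nonneg (re (L fun n => F n k) - re (F n k)),
          sq_nonneg (im (L fun n => F n k) - im (F n k))]
      rw [isum_add (by fun_prop) (by fun_prop)] at h3
      rw [re_isum (by fun_prop)]
      linarith⟩
  rw [re_isum (by fun_prop)] at h1
  simp only [conj_mul_self, re_ofR] at h1
  linarith

/-- Cauchy-Schwarz with bounds -/
theorem cs {f g : NN N → R} (hf : DefF N f) (hg : DefF N g) (M : NN N) {s t : R} (hs : 0 ≤ s)
    (ht : 0 ≤ t) (h1 : isum (fun i => f i ^ 2) M ≤ s ^ 2)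
    (h2 : isum (fun i => g i ^ 2) M ≤ t ^ 2) :
    isum (fun i => f i * g i) M ≤ s * t := by
  refine (le_abs_self _).trans (abs_le_of_sq_le_sq ((isum_mul_sq_le hf hg M).trans ?_)
    (mul_nonneg hs ht))
  rw [mul_pow]
  exact mul_le_mul h1 h2 (isum_nonneg (by fun_prop) fun _ _ => sq_nonneg _) (sq_nonneg s)

/-- The lower estimate passes to the limit. -/
theorem lower (h : KLim N L) {F : NN N → NN N → K}
    (hF : DefF N fun p : NN N × NN N => F p.1 p.2) (hC : ∀ n k, nm (F n k) ≤ 1) {δ θ B B' : R}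
    (hδ : 0 < δ) (hθ : 0 ≤ θ) {q : NN N → R} (hq : DefF N q) {a : NN N → K} (ha : DefF N a)
    (M m : NN N) (h1 : ∀ k, k < M → |re (a k) - q k| ≤ θ) (h2 : ∀ k, M ≤ k → q k = 0)
    (hB : 0 ≤ B) (hB' : 0 ≤ B') (h3 : B ^ 2 = isum (fun k => re (a k) ^ 2) M)
    (h4 : isum (fun k => im (a k) ^ 2) M ≤ B' ^ 2)
    (hS : ∀ n, m ≤ n → 0 ≤ isum (fun k => q k * re (F n k)) n ∧
      (3 / 8 * δ) ^ 2 * isum (fun k => q k ^ 2) n ≤
        isum (fun k => q k * re (F n k)) n ^ 2 ∧
      isum (fun k => im (F n k) ^ 2) n ≤ (δ / 16) ^ 2) :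
    3 / 8 * δ * B - δ / 16 * B' - (δ + 1) * (rc R M * θ) ≤
      re (isum (fun k => a k * L fun n => F n k) M) := by
  have hL := h.defF
  obtain ⟨Q, hQ, hQ'⟩ := exists_sqrt N (x := isum (fun k => q k ^ 2) M)
    (isum_nonneg (by fun_prop) fun _ _ => sq_nonneg _)
  have hM : 0 ≤ rc R M * θ := mul_nonneg (rc_nonneg M) hθ
  have k6 : B ≤ Q + rc R M * θ := by
    have m1 := cs (f := fun k => re (a k)) (by fun_prop) hq M hB hQ h3.ge hQ'.ge
    have m3 : isum (fun k => re (a k) * (re (a k) - q k)) M ≤ rc R M * (B * θ) := by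
      refine isum_le_const (by fun_prop) fun k hk => (le_abs_self _).trans ?_
      rw [abs_mul]
      refine mul_le_mul (abs_le_of_sq_le_sq ?_ hB) (h1 k hk) (abs_nonneg _) hB
      rw [h3]
      exact le_isum (f := fun k => re (a k) ^ 2) (by fun_prop) hk fun _ _ => sq_nonneg _
    have m4 : B ^ 2 = isum (fun k => re (a k) * q k) M +
        isum (fun k => re (a k) * (re (a k) - q k)) M := by
      rw [h3, ← isum_add (by fun_prop) (by fun_prop)]
      exact isum_congr (by fun_prop) (by fun_prop) fun k _ => by ring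
    rcases eq_or_lt_of_le hB with h0 | h0
    · rw [← h0]; positivity
    · refine le_of_mul_le_mul_left ?_ h0
      nlinarith only [m1, m3, m4]
  have h5 := h.star hF hC (a := fun k => -a k) (by fun_prop) M
    (r := -(3 / 8 * δ * B - δ / 16 * B' - (δ + 1) * (rc R M * θ))) ⟨max M m, fun n hn => by
      have hn1 : M ≤ n := le_of_max_le_left hn
      obtain ⟨k1, k2, k3⟩ := hS n (le_of_max_le_right hn)
      rw [isum_of_le (f := fun k => q k * re (F n k)) (by fun_prop) hn1
        fun k hk _ => by rw [h2 k hk, zero_mul]] at k1 k2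
      rw [isum_of_le (f := fun k => q k ^ 2) (by fun_prop) hn1
        fun k hk _ => by rw [h2 k hk]; simp, ← hQ', ← mul_pow] at k2
      have k5 := le_of_sq_le_sq k2 k1
      have k7 := cs (f := fun k => im (a k)) (g := fun k => im (F n k)) (by fun_prop) (by fun_prop)
        M hB' (by positivity : 0 ≤ δ / 16) h4
        ((isum_mono (by fun_prop) hn1 fun _ _ => sq_nonneg _).trans k3)
      have k8 : isum (fun k => (q k - re (a k)) * re (F n k)) M ≤ rc R M * θ := by
        refine isum_le_const (by fun_prop) fun k hk => (le_abs_self _).trans ?_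
        rw [abs_mul, abs_sub_comm]
        exact (mul_le_of_le_one_right (abs_nonneg _) ((abs_re_le_nm _).trans (hC n k))).trans
          (h1 k hk)
      have e : re (isum (fun k => -a k * F n k) M) =
          isum (fun k => (q k - re (a k)) * re (F n k)) M +
          isum (fun k => im (a k) * im (F n k)) M -
          isum (fun k => q k * re (F n k)) M := by
        rw [re_isum (by fun_prop), ← isum_add (by fun_prop) (by fun_prop),
          ← isum_sub (by fun_prop) (by fun_prop)]
        refine isum_congr (by fun_prop) (by fun_prop) fun k _ => ?_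
        rw [mul_re, map_neg, map_neg]
        ring
      rw [e]
      have k9 := mul_le_mul_of_nonneg_left k6 (show 0 ≤ 3 / 8 * δ by positivity)
      have k11 := mul_nonneg hδ.le hM
      nlinarith only [k5, k7, k8, k9, k11]⟩
  simp only [neg_mul] at h5
  rwa [isum_neg (by fun_prop), map_neg, neg_le_neg_iff] at h5

end KLim

end Vale.Agent.P129B
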