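import Vale.Agent.P129BA.Star
import Vale.Agent.P129BM.Spec

/-!
# The row on orthonormal-like sequences of functionals
-/

namespace Vale.Agent.P129B

universe v

variable (N : Type v) [ZM N]
  (R : Type*) [Field R] [LinearOrder R] [IsStrictOrderedRing R] [Coded N R] [RF N R]
  (K : Type*) [Field K] [Algebra R K] [Nm K R] [KA R K] [Coded N K] [KF N R K]
  (E : Type*) [AddCommGroup E] [Module K E] [Nm E R] [NA R K E] [Coded N E] [NS N R K E]

theorem star_row : STAR N R K E := fun _ x hδ _ hx h => star_core hδ (DefF.ofIntl x) hx h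

end Vale.Agent.P129B
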